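import Vale.Agent.P215Z.Reg.Geo

/-!
# P215: combinatorics of the refined grid, for the closedness of the currents
-/

noncomputable section
namespace Vale.Agent.P215Z
open MvPolynomial Classical

namespace R2b

theorem ref_ee (F : Gp → Pt) (i j : ℤ) : ref F (2 * i, 2 * j) = cell (F (i, j)) := by
  have h1 : 2 * i / 2 = i := by omega
  have h2 : 2 * j / 2 = j := by omega
  simp only [ref, even_two_mul, and_self, if_true, h1, h2]

theorem ref_oe (F : Gp → Pt) (i j : ℤ) :
    ref F (2 * i + 1, 2 * j) = F (i, j) + F (i + 1, j) + 1 := by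
  have h0 : ¬ Even (2 * i + 1) := by rw [Int.even_iff]; omega
  have h1 : (2 * i + 1) / 2 = i := by omega
  have h2 : 2 * j / 2 = j := by omega
  simp only [ref, even_two_mul, h0, false_and, if_true, if_false, h1, h2]

theorem ref_eo (F : Gp → Pt) (i j : ℤ) :
    ref F (2 * i, 2 * j + 1) = F (i, j) + F (i, j + 1) + 1 := by
  have h0 : ¬ Even (2 * j + 1) := by rw [Int.even_iff]; omega
  have h1 : (2 * j + 1) / 2 = j := by omega
  have h2 : 2 * i / 2 = i := by omega
  simp only [ref, even_two_mul, h0, and_false, if_true, if_false, h1, h2]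

theorem ref_oo (F : Gp → Pt) (i j : ℤ) :
    ref F (2 * i + 1, 2 * j + 1) = if F (i, j) = F (i + 1, j + 1) then
      F (i + 1, j) + F (i, j + 1) + 1 else F (i, j) + F (i + 1, j + 1) + 1 := by
  have h0 : ¬ Even (2 * j + 1) := by rw [Int.even_iff]; omega
  have h0' : ¬ Even (2 * i + 1) := by rw [Int.even_iff]; omega
  have h1 : (2 * j + 1) / 2 = j := by omega
  have h2 : (2 * i + 1) / 2 = i := by omega
  simp only [ref, h0, h0', and_false, if_false, h1, h2]

/-- the refined map on a square of product type -/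
theorem ref_prod (F : Gp → Pt) (i j : ℤ) {a b : Pt} (h10 : F (i + 1, j) = F (i, j) + a)
    (h01 : F (i, j + 1) = F (i, j) + b) (h11 : F (i + 1, j + 1) = F (i, j) + a + b) {u v : ℤ}
    (hu : |u| ≤ 1) (hv : |v| ≤ 1) :
    ref F (2 * i + 1 + u, 2 * j + 1 + v) = cell (F (i, j)) + a + b + u • a + v • b := by
  have e1 : 2 * i + 1 + -1 = 2 * i := by ring
  have e2 : 2 * i + 1 + 1 = 2 * (i + 1) := by ring
  have e3 : 2 * j + 1 + -1 = 2 * j := by ring
  have e4 : 2 * j + 1 + 1 = 2 * (j + 1) := by ring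
  have hu' : u = -1 ∨ u = 0 ∨ u = 1 := by rw [abs_le] at hu; omega
  have hv' : v = -1 ∨ v = 0 ∨ v = 1 := by rw [abs_le] at hv; omega
  rcases hu' with rfl | rfl | rfl <;> rcases hv' with rfl | rfl | rfl <;>
    simp only [e1, e2, e3, e4, add_zero, ref_ee, ref_oe, ref_eo, ref_oo, h10, h01, h11]
  all_goals first | split_ifs | skip
  all_goals funext k; simp only [cell, Pi.add_apply, Pi.smul_apply, Pi.one_apply, smul_eq_mul]; ring

theorem thC_inj (N : ℕ) (i : Fin 3) {q q' : Pt} (h : thC N i q = thC N i q') : q = q' := by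
  funext j
  have := congrFun h ((ppi i).symm j)
  simpa only [thC, Equiv.apply_symm_apply, add_left_inj] using this

/-- two corners of a square with the same image have the same region -/
theorem reg_eq (D : DiscData) {Q v v' : Gp} (hQ : InSq D.M Q) (hv : Corner Q v) (hv' : Corner Q v')
    (h : D.F (D.reg v) v = D.F (D.reg v) v') : D.reg v = D.reg v' := by
  rcases D.sq Q hQ with h0 | ⟨g, i, h0⟩
  · rw [h0 v hv, h0 v' hv']
  · have e : D.F g v = D.F g v' := by
      rcases (h0 v hv).2 with ⟨h1, -⟩ | ⟨h1, -⟩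
      · rwa [h1] at h
      · rw [h1, D.equiv, D.equiv] at h
        exact thC_inj _ _ h
    rcases (h0 v hv).2 with ⟨h1, h2⟩ | ⟨h1, h2⟩ <;> rcases (h0 v' hv').2 with ⟨h3, h4⟩ | ⟨h3, h4⟩
    · rw [h1, h3]
    · exact absurd (e ▸ h4) h2
    · exact absurd (e ▸ h2) h4
    · rw [h1, h3]

variable (s : Setup)

theorem sh_step {f f' : Gp} (hf : InSq s.g.m f) (hf' : InSq s.g.m f')
    (h : f' = f ∨ GAdj f f') (hl : s.D.reg (crn f) = s.D.reg (crn f')) :
    s.cv.sh f = s.cv.sh f' := by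
  rcases h with rfl | h
  · rfl
  · exact s.cv.sh_adj f f' hf hf' h (by rw [s.hlab, s.hlab, hl])

theorem sh_crn {f f' : Gp} (hf : InSq s.g.m f) (hf' : InSq s.g.m f') (h : crn f = crn f') :
    s.cv.sh f = s.cv.sh f' := by
  obtain ⟨a, b⟩ := f
  obtain ⟨a', b'⟩ := f'
  have h1 : (a + 1) / 2 = (a' + 1) / 2 := congrArg Prod.fst h
  have h2 : (b + 1) / 2 = (b' + 1) / 2 := congrArg Prod.snd h
  have hm : InSq s.g.m (a, b') := ⟨hf.1, hf.2.1, hf'.2.2.1, hf'.2.2.2⟩
  have c1 : crn (a, b) = crn (a, b') := Prod.ext rfl h2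
  have c2 : crn (a, b') = crn (a', b') := Prod.ext h1 rfl
  refine (sh_step s hf hm ?_ (by rw [c1])).trans (sh_step s hm hf' ?_ (by rw [c2]))
  · simp only [GAdj, Prod.ext_iff, Prod.fst_add, Prod.snd_add, Prod.fst_sub, Prod.snd_sub,
      true_and]; omega
  · simp only [GAdj, Prod.ext_iff, Prod.fst_add, Prod.snd_add, Prod.fst_sub, Prod.snd_sub,
      and_true]; omega

theorem inSq_face {i j : ℤ} (hQ : InSq s.D.M (i, j)) {u v : ℤ} (hu : u = 0 ∨ u = 1)
    (hv : v = 0 ∨ v = 1) : InSq s.g.m (2 * i + u, 2 * j + v) := by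
  obtain ⟨h1, h2, h3, h4⟩ := hQ
  simp only [InSq, s.hm, Nat.cast_mul, Nat.cast_ofNat] at h1 h2 h3 h4 ⊢
  omega

/-- a vertex of the refined square lies in a sheet through a face of the square -/
theorem pv_sq {P : s.cv.S} {i j : ℤ} (hQ : InSq s.D.M (i, j)) {r : Gp} (h1 : 2 * i ≤ r.1)
    (h2 : r.1 ≤ 2 * i + 2) (h3 : 2 * j ≤ r.2) (h4 : r.2 ≤ 2 * j + 2) (h : s.cv.PV P r) :
    ∃ u v : ℤ, (u = 0 ∨ u = 1) ∧ (v = 0 ∨ v = 1) ∧ s.cv.sh (2 * i + u, 2 * j + v) = P ∧
      Corner (2 * i + u, 2 * j + v) r := by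
  obtain ⟨f, hf, rfl, c1, c2⟩ := h
  have hu : (if f.1 ≤ 2 * i then (0 : ℤ) else 1) = 0 ∨ (if f.1 ≤ 2 * i then (0 : ℤ) else 1) = 1 := by
    split_ifs <;> simp
  have hv : (if f.2 ≤ 2 * j then (0 : ℤ) else 1) = 0 ∨ (if f.2 ≤ 2 * j then (0 : ℤ) else 1) = 1 := by
    split_ifs <;> simp
  refine ⟨_, _, hu, hv, sh_crn s (inSq_face s hQ hu hv) hf ?_, ?_, ?_⟩
  · simp only [crn, Prod.ext_iff]
    constructor <;> split_ifs <;> omega
  · dsimp only; split_ifs <;> omega
  · dsimp only; split_ifs <;> omega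

/-- adjacent faces of a square whose corners have the same image lie in the same sheet -/
theorem sh_same {P : s.cv.S} {i j : ℤ} (hQ : InSq s.D.M (i, j)) {u v u' v' : ℤ}
    (hu : u = 0 ∨ u = 1) (hv : v = 0 ∨ v = 1) (hu' : u' = 0 ∨ u' = 1) (hv' : v' = 0 ∨ v' = 1)
    (ha : u = u' ∨ v = v')
    (h : s.D.F (s.cv.labS P) (i + u, j + v) = s.D.F (s.cv.labS P) (i + u', j + v'))
    (hP : s.cv.sh (2 * i + u, 2 * j + v) = P) : s.cv.sh (2 * i + u', 2 * j + v') = P := by
  have c1 : crn (2 * i + u, 2 * j + v) = (i + u, j + v) := by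
    simp only [crn, Prod.ext_iff]; omega
  have c2 : crn (2 * i + u', 2 * j + v') = (i + u', j + v') := by
    simp only [crn, Prod.ext_iff]; omega
  have hl : s.cv.labS P = s.D.reg (i + u, j + v) := by
    rw [← hP, s.cv.lab_sh _ (inSq_face s hQ hu hv), s.hlab, c1]
  rw [hl] at h
  refine (sh_step s (inSq_face s hQ hu hv) (inSq_face s hQ hu' hv') ?_ ?_).symm.trans hP
  · simp only [GAdj, Prod.ext_iff, Prod.fst_add, Prod.snd_add, Prod.fst_sub, Prod.snd_sub]; omega
  · rw [c1, c2]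
    refine reg_eq s.D hQ ?_ ?_ h
    · simp only [Corner]; omega
    · simp only [Corner]; omega

theorem pv_bd {P : s.cv.S} {r : Gp} (h : s.cv.PV P r)
    (hr : r.1 = 0 ∨ r.1 = 2 * s.D.M ∨ r.2 = 0 ∨ r.2 = 2 * s.D.M) : P = s.cv.root := by
  obtain ⟨f, hf, rfl, c1, c2⟩ := h
  refine s.cv.sh_bd f hf ?_
  obtain ⟨h1, h2, h3, h4⟩ := hf
  simp only [s.hm, Nat.cast_mul, Nat.cast_ofNat] at h2 h4 ⊢
  omega

theorem lf_right (r : Gp) : lf r (r + (1, 0)) = r := by simp [lf]
theorem lf_up (r : Gp) : lf r (r + (0, 1)) = r - (1, 0) := by simp [lf]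
theorem lf_left (r : Gp) : lf (r + (1, 0)) r = r - (0, 1) := by
  simp only [lf, Prod.ext_iff, Prod.fst_add, Prod.snd_add, Prod.fst_sub, Prod.snd_sub]
  rw [if_neg (by omega), if_neg (by omega), if_pos (by omega)]
  simp only [Prod.fst_add, Prod.snd_add, Prod.fst_sub, Prod.snd_sub]; omega
theorem lf_down (r : Gp) : lf (r + (0, 1)) r = r := by
  simp only [lf, Prod.ext_iff, Prod.fst_add, Prod.snd_add, Prod.fst_sub, Prod.snd_sub]
  rw [if_neg (by omega), if_neg (by omega), if_neg (by omega)]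
  simp only [Prod.fst_add, Prod.snd_add, Prod.fst_sub, Prod.snd_sub]; omega

/-- two adjacent corners of a face of a sheet span an edge of the sheet -/
theorem pe_of_corner {f r r' : Gp} (hf : InSq s.g.m f) (hr : Corner f r) (hr' : Corner f r')
    (h : GAdj r r') : s.cv.PE (s.cv.sh f) r r' := by
  refine ⟨h, ?_⟩
  suffices e : lf r r' = f ∨ lf r' r = f by
    rcases e with e | e
    · exact Or.inl (by rw [e]; exact ⟨hf, rfl⟩)
    · exact Or.inr (by rw [rt, e]; exact ⟨hf, rfl⟩)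
  obtain ⟨c1, c2⟩ := hr
  obtain ⟨c3, c4⟩ := hr'
  rcases h with rfl | h | rfl | h
  · rw [lf_right, lf_left]
    simp only [Prod.ext_iff, Prod.fst_add, Prod.snd_add, Prod.fst_sub, Prod.snd_sub] at *; omega
  · obtain rfl : r = r' + (1, 0) := by rw [h, sub_add_cancel]
    rw [lf_right, lf_left]
    simp only [Prod.ext_iff, Prod.fst_add, Prod.snd_add, Prod.fst_sub, Prod.snd_sub] at *; omega
  · rw [lf_up, lf_down]
    simp only [Prod.ext_iff, Prod.fst_add, Prod.snd_add, Prod.fst_sub, Prod.snd_sub] at *; omega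
  · obtain rfl : r = r' + (0, 1) := by rw [h, sub_add_cancel]
    rw [lf_up, lf_down]
    simp only [Prod.ext_iff, Prod.fst_add, Prod.snd_add, Prod.fst_sub, Prod.snd_sub] at *; omega

theorem IsStep.neg {a : Pt} (h : IsStep a) : IsStep (-a) := by
  rcases h with rfl | ⟨k, rfl | rfl⟩
  · exact Or.inl neg_zero
  · exact Or.inr ⟨k, Or.inr rfl⟩
  · exact Or.inr ⟨k, Or.inl (neg_neg _)⟩

theorem step_dir {a : Pt} (h : IsStep a) (h0 : a ≠ 0) :
    (a (dirOf a) = 1 ∨ a (dirOf a) = -1) ∧ a = a (dirOf a) • ee (dirOf a) := by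
  have key : ∀ k, a k ≠ 0 → (a k = 1 ∨ a k = -1) ∧ a = a k • ee k := by
    intro k hk
    rcases h with rfl | ⟨l, rfl | rfl⟩
    · exact absurd rfl h0
    · obtain rfl : k = l := by
        by_contra hne
        exact hk (Pi.single_eq_of_ne hne _)
      simp [ee]
    · obtain rfl : k = l := by
        by_contra hne
        exact hk (by simp [ee, hne])
      simp [ee]
  have h1 : ∃ k, a k ≠ 0 := by
    by_contra hne
    exact h0 (funext fun k => by_contra fun hk => hne ⟨k, hk⟩)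
  rw [dirOf, dif_pos h1]
  exact key _ h1.choose_spec

theorem tele {G : Type} [AddCommGroup G] (f : ℤ → G) (n : ℕ) :
    ∑ j ∈ Finset.Ico (0 : ℤ) n, (f (j + 1) - f j) = f n - f 0 := by
  induction n with
  | zero => simp
  | succ n ih =>
    have e : Finset.Ico (0 : ℤ) ((n + 1 : ℕ) : ℤ) = insert (n : ℤ) (Finset.Ico (0 : ℤ) n) := by
      ext j; simp only [Finset.mem_Ico, Finset.mem_insert, Nat.cast_succ]; omega
    rw [e, Finset.sum_insert (by simp), ih, Nat.cast_succ]; abel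

end R2b
end Vale.Agent.P215Z
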