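import Vale.Agent.P215Z.Reg.Cl.C

/-!
# P215: the items on the cocores
-/

noncomputable section
namespace Vale.Agent.P215Z
open MvPolynomial Classical

namespace R2b

theorem kap_ne (c : Fin 3) : kap c ≠ 3 ∧ kap c ≠ 2 := by revert c; decide

theorem org_inj {c c' : Fin 3} (h : org (c, true) 2 = org (c', true) 2) : c = c' := by
  revert c c'; decide

theorem col_Q {N : ℕ} (hN : 0 < N) (c : Fin 3) {q : Pt} (hq : q ∈ Uc N)
    (h : ∀ j, j ≠ kap c → j ≠ 3 → q j = N * org (c, true) j)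
    (h1 : N * org (c, true) (kap c) - 1 ≤ q (kap c))
    (h2 : q (kap c) ≤ N * org (c, true) (kap c) + 3 * N) : q ∈ Qc N (c, true) := by
  have h3 := hq.1 3
  have hc := hq.2
  have g0 := h 0
  have g1 := h 1
  have g2 := h 2
  simp only [caves, List.mem_cons, forall_eq_or_imp, InBox, Fin.forall_fin_succ] at hc
  obtain ⟨c1, c2, -, -, -, -, c7, c8, -, -, -, -, c13, c14, -⟩ := hc
  fin_cases c <;>
    simp [Qc, InBox, Fin.forall_fin_succ, org, kap, boxHi] at h1 h2 h3 g0 g1 g2 c1 c2 c7 c8 c13 c14 ⊢ <;>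
    omega

theorem upd_KB {N : ℕ} {p : Pt} (hp : p ∈ KB N) : Function.update p 3 0 ∈ KB N := by
  obtain ⟨q, ⟨⟨h1, h2⟩, h3⟩, h4⟩ := hp
  have h5 := h1 3
  have key : ∀ a b : Pt, a 3 = 0 → b 3 = 3 →
      (InBox N a b (Function.update q 3 0) ↔ InBox N a b q) := by
    intro a b ha hb
    refine forall_congr' fun j => ?_
    by_cases hj : j = 3
    · subst hj
      rw [Function.update_self, ha, hb]
      simp [boxHi] at h5
      omega
    · rw [Function.update_of_ne hj]
  refine ⟨Function.update q 3 0, ⟨⟨(key _ _ rfl rfl).2 h1, fun c hc => ?_⟩, fun i hi => ?_⟩,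
    fun j => ?_⟩
  · have e : ∀ c ∈ caves, c.1 3 = 0 ∧ c.2 3 = 3 := by decide
    exact fun h => h2 c hc ((key _ _ (e c hc).1 (e c hc).2).1 h)
  · have e : ∀ i : Fin 3, org (i, false) 3 = 0 ∧ (org (i, false) + 3) 3 = 3 := by decide
    exact h3 i ((key _ _ (e i).1 (e i).2).1 hi)
  · by_cases hj : j = 3
    · subst hj
      simp [cell]
    · simp only [cell, Function.update_of_ne hj]
      exact h4 j

/-- points of the column in the cube of a strong leg -/
def col (N : ℕ) (c : Fin 3) (z : ℤ) : Pt :=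
  dm N (c, true) fun j => if j = kap c then z else if j = 3 then 0 else 1

def vt (N : ℕ) (c : Fin 3) (t : ℕ) : Pt := dm N (c, true) ((2 * t : ℤ) • ee (kap c))

variable (N : ℕ) (c : Fin 3)

theorem col_apply (z : ℤ) (j : Fin 4) : col N c z j =
    (if j = kap c then z else if j = 3 then 0 else 1) + 2 * (N * org (c, true) j) := by
  rw [← mul_assoc]; rfl

theorem vt_apply (t : ℕ) (j : Fin 4) :
    vt N c t j = (if j = kap c then (2 * t : ℤ) else 0) + 2 * (N * org (c, true) j) := by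
  have e : vt N c t j = (2 * t : ℤ) * ee (kap c) j + 2 * N * org (c, true) j := rfl
  rw [e, ee, Pi.single_apply, mul_assoc (2 : ℤ) N]
  split_ifs <;> simp

theorem col_three (z : ℤ) : col N c z 3 = 0 := by
  have e : ∀ c : Fin 3, org (c, true) 3 = 0 := by decide
  rw [col_apply, if_neg (kap_ne c).1.symm, if_pos rfl, e, mul_zero, mul_zero, add_zero]

theorem col_add (z : ℤ) : col N c z + ee (kap c) = col N c (z + 1) := by
  funext j
  rw [Pi.add_apply, col_apply, col_apply, ee, Pi.single_apply]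
  split_ifs <;> ring

theorem col_sub (z : ℤ) : col N c z - ee (kap c) = col N c (z - 1) := by
  rw [sub_eq_iff_eq_add, col_add, sub_add_cancel]

theorem col_upd (z z' : ℤ) :
    Function.update (col N c z) (kap c) (col N c z' (kap c)) = col N c z' := by
  funext j
  by_cases h : j = kap c
  · rw [h, Function.update_self]
  · rw [Function.update_of_ne h, col_apply, col_apply, if_neg h, if_neg h]

theorem col_inj {z z' : ℤ} (h : col N c z = col N c z') : z = z' := by
  have := congrFun h (kap c)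
  rw [col_apply, col_apply, if_pos rfl, if_pos rfl] at this
  omega

theorem wv_col (t : ℕ) {u : ℤ} (hu : u = 0 ∨ u = 1) : wv (col N c (2 * t + u)) = vt N c t := by
  funext j
  simp only [wv, col_apply, vt_apply, Int.odd_iff]
  split_ifs <;> omega

theorem vt_ne (t : ℕ) : vt N c (t + 1) ≠ vt N c t := fun h => by
  have := congrFun h (kap c)
  rw [vt_apply, vt_apply, if_pos rfl, if_pos rfl] at this
  omega

variable {N c}

theorem cube_col (hN : 0 < N) {p q : Pt} {z : ℤ} (hq : q ∈ Uc N)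
    (h : ∀ j, |p j - cell q j| ≤ 1) (hp : ∀ j, j ≠ 3 → p j = col N c z j) (h1 : -1 ≤ z)
    (h2 : z ≤ 6 * N + 1) : q ∈ Qc N (c, true) := by
  have hk := h (kap c)
  rw [hp _ (kap_ne c).1, col_apply, if_pos rfl, cell, abs_le] at hk
  refine col_Q hN c hq (fun j hj hj' => ?_) (by omega) (by omega)
  have hj2 := h j
  rw [hp _ hj', col_apply, if_neg hj, if_neg hj', cell, abs_le] at hj2
  omega

theorem col_not_KR (hN : 0 < N) {p : Pt} {z : ℤ} (hp : ∀ j, j ≠ 3 → p j = col N c z j)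
    (h1 : -1 ≤ z) (h2 : z ≤ 6 * N + 1) : p ∉ KR N := fun ⟨_, hq, h⟩ =>
  hq.2 c (cube_col hN hq.1 h hp h1 h2)

theorem col_KB (hN : 0 < N) {z : ℤ} (hp : col N c z ∈ KB N) (h1 : -1 ≤ z) (h2 : z ≤ 6 * N + 1) :
    0 ≤ z ∧ z ≤ 6 * N := by
  obtain ⟨q, hq, h⟩ := hp
  have h3 := cube_col hN hq.1 h (fun _ _ => rfl) h1 h2 (kap c)
  have hk := h (kap c)
  rw [col_apply, if_pos rfl, cell, abs_le] at hk
  have e : (org (c, true) + 3) (kap c) = org (c, true) (kap c) + 3 := rfl
  rw [e, mul_add] at h3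
  omega

variable {O : Type} [CommRing O] [Algebra ℚ O]

theorem at0U_mul (g h : (MM O)ˣ) : at0U (g * h) = at0U g * at0U h := map_mul _ g h
theorem at0U_inv (g : (MM O)ˣ) : at0U g⁻¹ = (at0U g)⁻¹ := map_inv _ g
theorem at0U_one : at0U (1 : (MM O)ˣ) = 1 := map_one _
theorem at0_Ad (g : (MM O)ˣ) (z : MM O) : at0 (Ad g z) = Ad (at0U g) (at0 z) := by
  rw [Ad, Ad, at0_mul, at0_mul, ← at0U_inv]; rfl

variable (s : Setup) (x : ∀ l : Lg, Option (s.L.C l.1) → M2 O) (B : F1 O)

def Yv (c : Fin 3) (t : ℕ) : M2 O :=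
  at0 (Ad (holN (pe B) (vt s.D.N c) t) (cst (x (c, true) none)))

theorem Yv_succ (c : Fin 3) (t : ℕ) : Yv s x B c (t + 1) =
    Ad (at0U (pe B (vt s.D.N c t) (vt s.D.N c (t + 1)))) (Yv s x B c t) := by
  rw [Yv, holN, Ad_mul, at0_Ad]; rfl

theorem itB_valid (y : Fin 3 × Fin (s.n + 1)) : (s.itB x B y).Valid := by
  refine ⟨(kap_ne y.1).1, ?_, ?_, fun j h1 h2 => ?_⟩
  · show Even (col s.D.N y.1 (2 * (y.2 : ℕ)) (kap y.1))
    rw [col_apply, if_pos rfl, Int.even_iff]; omega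
  · show Even (col s.D.N y.1 (2 * (y.2 : ℕ)) 3)
    rw [col_three]; exact Even.zero
  · show Odd (col s.D.N y.1 (2 * (y.2 : ℕ)) j)
    rw [col_apply, if_neg (show j ≠ kap y.1 from h1), if_neg (show j ≠ 3 from h2), Int.odd_iff]
    omega

theorem star_col (y : Fin 3 × Fin (s.n + 1)) {τ : Pt} (h : (s.itB x B y).Star τ) :
    ∃ z : ℤ, -1 ≤ z ∧ z ≤ 6 * s.D.N + 1 ∧ ∀ j, j ≠ 3 → τ j = col s.D.N y.1 z j := by
  obtain ⟨h1, h2, -⟩ := h
  have h3 : |τ (kap y.1) - col s.D.N y.1 (2 * (y.2 : ℕ)) (kap y.1)| ≤ 1 := h2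
  have h4 : (y.2 : ℕ) < 3 * s.D.N + 1 := y.2.2
  rw [col_apply, if_pos rfl, abs_le] at h3
  refine ⟨τ (kap y.1) - 2 * (s.D.N * org (y.1, true) (kap y.1)), by omega, by omega,
    fun j hj => ?_⟩
  by_cases hk : j = kap y.1
  · rw [col_apply, if_pos hk, hk, sub_add_cancel]
  · have h5 : τ j = col s.D.N y.1 (2 * (y.2 : ℕ)) j := h1 j hk hj
    rw [h5, col_apply, col_apply, if_neg hk, if_neg hk]

theorem star_same {y y' : Fin 3 × Fin (s.n + 1)} {τ : Pt} (h : (s.itB x B y).Star τ)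
    (h' : (s.itB x B y').Star τ) : y.1 = y'.1 := by
  obtain ⟨z, -, -, e⟩ := star_col s x B y h
  obtain ⟨z', -, -, e'⟩ := star_col s x B y' h'
  have h1 := (e 2 (by decide)).symm.trans (e' 2 (by decide))
  rw [col_apply, col_apply, if_neg (kap_ne _).2.symm, if_neg (kap_ne _).2.symm] at h1
  have hN : (s.D.N : ℤ) ≠ 0 := by have := s.D.hN; omega
  exact org_inj (mul_left_cancel₀ hN (by omega))

theorem JJ_apply {ι : Type} [Fintype ι] (A : F1 O) (it : ι → Item O) (p : Pt) (i j : Fin 4) :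
    JJ A it p i j = ∑ y, (it y).J A p i j := by
  simp only [JJ, Finset.sum_apply]

variable {x B} (m : Marked O Mk)
  (hx : ∀ l c, s.L.cown l c = true → InC (m.ii (s.L.cmark l c)) (x l c))
include hx

theorem Yv_mem (B : F1 O) (c : Fin 3) (t : ℕ) : InC (m.ii (Sum.inr (c, true))) (Yv s x B c t) :=
  InI.at0 (InC.Ad ((inI_cst _ _).2 (hx (c, true) none rfl)) _)

variable {A : F1 O} (hp : s.Pair m.a A B) {b : Ideal O}
  (hs : In2 (KB s.D.N) b (curv B - s.JB x B))
include hs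

theorem flatB (y : Fin 3 × Fin (s.n + 1)) {τ : Pt} (hτ : τ ∈ KB s.D.N) (h0 : τ 3 = 0)
    (h : (s.itB x B y).Star τ) : FlatAt B (b ⊔ m.ii (Sum.inr (y.1, true))) τ := by
  intro i j hi hj
  have h1 : InI (m.ii (Sum.inr (y.1, true))) (s.JB x B τ i j) := by
    rw [Setup.JB]
    split_ifs
    · exact InC.zero
    · rw [← h0, Function.update_eq_self, JJ_apply]
      refine InC.sum _ _ fun y' _ => ?_
      by_cases e : (s.itB x B y').J B τ i j = 0
      · rw [e]; exact InC.zero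
      · rw [star_same s x B h (Item.face_of_J B _ (itB_valid s x B y') e).1]
        exact Item.J_inI B _ (Yv_mem s m hx B y'.1 y'.2) τ i j
  have h2 := InC.add ((hs τ hτ i j hi hj).mono le_sup_left) (h1.mono le_sup_right)
  rwa [Pi.sub_apply, Pi.sub_apply, Pi.sub_apply, sub_add_cancel] at h2

include hp

theorem xi_col (y : Fin 3 × Fin (s.n + 1)) (t : ℕ) (hθ : col s.D.N y.1 (2 * t + 1) ∈ KB s.D.N)
    (ht : (y.2 : ℕ) = t ∨ (y.2 : ℕ) = t + 1) :
    pr (m.a * b) ((s.itB x B y).xi B (col s.D.N y.1 (2 * t + 1))) =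
      pr _ (Ad (Up B (col s.D.N y.1 (2 * t + 1))) (cst (Yv s x B y.1 t))) := by
  have hK : Cx (KB s.D.N) := cx_Kof _
  have hst : (s.itB x B y).Star (col s.D.N y.1 (2 * t + 1)) := by
    refine ⟨fun j h1 h2 => ?_, ?_, ?_⟩
    · show col s.D.N y.1 _ j = col s.D.N y.1 (2 * (y.2 : ℕ)) j
      rw [col_apply, col_apply, if_neg (show j ≠ kap y.1 from h1),
        if_neg (show j ≠ kap y.1 from h1)]
    · show |col s.D.N y.1 _ (kap y.1) - col s.D.N y.1 (2 * (y.2 : ℕ)) (kap y.1)| ≤ 1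
      rw [col_apply, col_apply, if_pos rfl, if_pos rfl, abs_le]; omega
    · show |col s.D.N y.1 _ 3 - col s.D.N y.1 (2 * (y.2 : ℕ)) 3| ≤ 1
      rw [col_three, col_three]; simp
  have h1 := Item.xi_Up m.nil hK hp.gB hp.iB _ (itB_valid s x B y) (m.sq _)
    (Yv_mem s m hx B y.1 y.2) hθ hst (flatB s m hx hs y hθ (col_three _ _ _) hst)
  have hσ : col s.D.N y.1 (2 * (y.2 : ℕ)) ∈ KB s.D.N := by
    refine hK.isFace hθ fun j => ?_
    rw [col_apply, col_apply, Int.odd_iff, abs_eq (by norm_num : (0 : ℤ) ≤ 1)]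
    split_ifs <;> omega
  have hadj : Adj (col s.D.N y.1 (2 * (y.2 : ℕ))) (col s.D.N y.1 (2 * t + 1)) := by
    refine Or.inr ⟨kap y.1, ?_⟩
    rcases ht with ht | ht
    · left; rw [sub_eq_iff_eq_add', col_add, ht]
    · right; rw [sub_eq_iff_eq_add', ← sub_eq_add_neg, col_sub, ht]
      push_cast; congr 1; ring
  have h2 : at0 ((s.itB x B y).xi B (col s.D.N y.1 (2 * t + 1))) = Yv s x B y.1 t := by
    have e : (s.itB x B y).xi B (col s.D.N y.1 (2 * t + 1)) =
        Ad (Up B (col s.D.N y.1 (2 * (y.2 : ℕ))) * step B (col s.D.N y.1 (2 * (y.2 : ℕ)))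
          (Function.update (col s.D.N y.1 (2 * (y.2 : ℕ))) (kap y.1)
            (col s.D.N y.1 (2 * t + 1) (kap y.1))) *
          step B (Function.update (col s.D.N y.1 (2 * (y.2 : ℕ))) (kap y.1)
            (col s.D.N y.1 (2 * t + 1) (kap y.1))) (col s.D.N y.1 (2 * t + 1)))
          (cst (Yv s x B y.1 y.2)) := rfl
    have h3 := at0_step m.nil hK hp.gB hp.iB hσ hθ hadj
    have w1 := wv_col s.D.N y.1 y.2 (Or.inl rfl)
    rw [add_zero] at w1
    rw [w1, wv_col s.D.N y.1 t (Or.inr rfl)] at h3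
    rw [e, col_upd, step_self, mul_one, at0_Ad, at0U_mul, at0_Up m.nil hK hp.gB hp.iB hσ, one_mul,
      at0_cst]
    rcases ht with ht | ht
    · rw [ht] at h3 ⊢
      have h4 : at0U (step B (col s.D.N y.1 (2 * t)) (col s.D.N y.1 (2 * t + 1))) = 1 := by
        rcases h3 with h3 | h3
        · exact h3.2
        · rw [h3.2, pe, step_symm B (vt s.D.N y.1 t), mul_inv_cancel, at0U_one]
      rw [h4]
      simp only [Ad, inv_one, Units.val_one, one_mul, mul_one]
    · rw [ht] at h3 ⊢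
      rcases h3 with h3 | h3
      · exact absurd h3.1 (vt_ne _ _ _)
      · rw [h3.2, pe_symm, at0U_inv, Yv_succ, ← Ad_mul, mul_inv_cancel]
        simp only [Ad, inv_one, Units.val_one, one_mul, mul_one]
  rw [h2] at h1
  exact pr_eq.2 (h1.mono (Ideal.mul_mono_left (m.le _)))

theorem hclB {θ : Pt} (hθ : θ ∈ KB s.D.N) (h0 : θ 3 = 0) :
    InI (m.a * b) (∑ y, (s.itB x B y).inc θ • (s.itB x B y).xi B θ) := by
  rw [← pr_zero, map_sum, Fintype.sum_prod_type]
  refine Finset.sum_eq_zero fun c _ => ?_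
  let Z : ℕ → MM O ⧸ IG (m.a * b) := fun t => if θ = col s.D.N c (2 * t - 1) then
    pr _ (Ad (Up B θ) (cst (Yv s x B c (t - 1)))) else 0
  have hN := s.D.hN
  have key : ∀ t : Fin (s.n + 1), pr (m.a * b) ((s.itB x B (c, t)).inc θ • (s.itB x B (c, t)).xi B θ) =
      Z t - Z (t + 1) := by
    intro t
    have e : (s.itB x B (c, t)).inc θ =
        if θ = col s.D.N c (2 * (t : ℕ)) + ee (kap c) then -1
        else if θ = col s.D.N c (2 * (t : ℕ)) - ee (kap c) then 1
        else if θ = col s.D.N c (2 * (t : ℕ)) + ee 3 then 1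
        else if θ = col s.D.N c (2 * (t : ℕ)) - ee 3 then -1 else 0 := rfl
    have e1 : (2 * ((t : ℕ) + 1 : ℕ) - 1 : ℤ) = 2 * (t : ℕ) + 1 := by push_cast; ring
    have n3 : θ ≠ col s.D.N c (2 * (t : ℕ)) + ee 3 := fun h => by
      have := congrFun h 3
      rw [Pi.add_apply, col_three, h0] at this
      simp [ee] at this
    have n4 : θ ≠ col s.D.N c (2 * (t : ℕ)) - ee 3 := fun h => by
      have := congrFun h 3
      rw [Pi.sub_apply, col_three, h0] at this
      simp [ee] at this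
    rw [map_zsmul, e, if_neg n3, if_neg n4, col_add, col_sub]
    simp only [Z, e1, Nat.add_sub_cancel]
    by_cases h1 : θ = col s.D.N c (2 * (t : ℕ) + 1)
    · have h2 : θ ≠ col s.D.N c (2 * (t : ℕ) - 1) := fun h2 => by
        have := col_inj _ _ (h1.symm.trans h2); omega
      rw [if_pos h1, if_pos h1, if_neg h2, zero_sub, neg_smul, one_smul, h1,
        xi_col s m hx hp hs (c, t) t (h1 ▸ hθ) (Or.inl rfl)]
    · rw [if_neg h1, if_neg h1, sub_zero]
      split_ifs with h2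
      · have h3 := col_KB hN (h2 ▸ hθ) (by omega) (by have : (t : ℕ) < 3 * s.D.N + 1 := t.2; omega)
        obtain ⟨t', ht'⟩ : ∃ t' : ℕ, (t : ℕ) = t' + 1 := ⟨(t : ℕ) - 1, by omega⟩
        have e2 : (2 * (t : ℕ) - 1 : ℤ) = 2 * t' + 1 := by omega
        rw [e2] at h2
        rw [one_smul, h2, xi_col s m hx hp hs (c, t) t' (h2 ▸ hθ) (Or.inr ht'), ht',
          Nat.add_sub_cancel]
      · exact zero_zsmul _
  rw [Finset.sum_congr rfl fun t _ => key t,
    Fin.sum_univ_eq_sum_range (fun t => Z t - Z (t + 1)) (s.n + 1), Finset.sum_range_sub']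
  have z0 : Z 0 = 0 := if_neg fun h => by
    have := col_KB hN (h ▸ hθ) (by omega) (by omega); omega
  have z1 : Z (s.n + 1) = 0 := if_neg fun h => by
    have e : s.n = 3 * s.D.N := rfl
    have := col_KB hN (h ▸ hθ) (by omega) (by omega); omega
  rw [z0, z1, sub_zero]

end R2b
end Vale.Agent.P215Z
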